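import Vale.Agent.P084.Norm

/-!
The homogeneous extension of an isometry of unit spheres.
-/

namespace Vale.Agent.P084

open Filter Topology

variable {X Y : Type*} [NormedAddCommGroup X] [NormedSpace ℝ X]
  [NormedAddCommGroup Y] [NormedSpace ℝ Y]

/-- the properties of the homogeneous extension -/
structure Ext (F : X → Y) : Prop where
  hom : ∀ (t : ℝ) (x : X), 0 ≤ t → F (t • x) = t • F x
  norm_eq : ∀ x, ‖F x‖ = ‖x‖
  iso : ∀ a b, ‖a‖ = ‖b‖ → ‖F a - F b‖ = ‖a - b‖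
  surj : Function.Surjective F

variable {F : X → Y}

theorem Ext.map_zero (H : Ext F) : F 0 = 0 := by
  simpa using H.norm_eq 0

theorem Ext.ne_zero (H : Ext F) {x : X} (hx : x ≠ 0) : F x ≠ 0 := by
  rwa [← norm_ne_zero_iff, H.norm_eq, norm_ne_zero_iff]

theorem Ext.abs_sub (H : Ext F) (a b : X) : |‖a‖ - ‖b‖| ≤ ‖F a - F b‖ := by
  rw [← H.norm_eq a, ← H.norm_eq b]; exact abs_norm_sub_norm_le _ _

/-- a comparison point of the same norm -/
theorem Ext.exists_same (H : Ext F) {a b : X} (ha : a ≠ 0) :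
    ∃ a', ‖a'‖ = ‖b‖ ∧ ‖a - a'‖ = |‖a‖ - ‖b‖| ∧ ‖F a - F a'‖ = |‖a‖ - ‖b‖| := by
  have hap : 0 < ‖a‖ := norm_pos_iff.mpr ha
  have hs : 0 ≤ ‖b‖ / ‖a‖ := by positivity
  have key : |(1 : ℝ) - ‖b‖ / ‖a‖| * ‖a‖ = |‖a‖ - ‖b‖| := by
    conv_lhs => arg 2; rw [← abs_of_pos hap]
    rw [← abs_mul]; congr 1; field_simp
  refine ⟨(‖b‖ / ‖a‖) • a, ?_, ?_, ?_⟩
  · rw [norm_smul, Real.norm_eq_abs, abs_of_nonneg hs]; field_simp
  · rw [show a - (‖b‖ / ‖a‖) • a = (1 - ‖b‖ / ‖a‖) • a by rw [sub_smul, one_smul], norm_smul,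
      Real.norm_eq_abs, key]
  · rw [H.hom _ _ hs, show F a - (‖b‖ / ‖a‖) • F a = (1 - ‖b‖ / ‖a‖) • F a by
      rw [sub_smul, one_smul], norm_smul, Real.norm_eq_abs, H.norm_eq, key]

theorem Ext.lip (H : Ext F) (a b : X) : ‖F a - F b‖ ≤ 3 * ‖a - b‖ := by
  by_cases ha : a = 0
  · subst ha; rw [H.map_zero, zero_sub, norm_neg, H.norm_eq, zero_sub, norm_neg]
    linarith [norm_nonneg b]
  obtain ⟨a', h1, h2, h3⟩ := H.exists_same (b := b) ha
  have h4 := abs_norm_sub_norm_le a b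
  have h5 := norm_sub_le_norm_sub_add_norm_sub a' a b
  rw [norm_sub_rev a' a] at h5
  calc ‖F a - F b‖ ≤ ‖F a - F a'‖ + ‖F a' - F b‖ := norm_sub_le_norm_sub_add_norm_sub _ _ _
    _ ≤ 3 * ‖a - b‖ := by rw [h3, H.iso a' b h1]; linarith

theorem Ext.antilip (H : Ext F) (a b : X) : ‖a - b‖ ≤ 3 * ‖F a - F b‖ := by
  by_cases ha : a = 0
  · subst ha; rw [H.map_zero, zero_sub, norm_neg, zero_sub, norm_neg, H.norm_eq]
    linarith [norm_nonneg b]
  obtain ⟨a', h1, h2, h3⟩ := H.exists_same (b := b) ha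
  have h4 := H.abs_sub a b
  have h5 := norm_sub_le_norm_sub_add_norm_sub (F a') (F a) (F b)
  rw [norm_sub_rev (F a') (F a)] at h5
  calc ‖a - b‖ ≤ ‖a - a'‖ + ‖a' - b‖ := norm_sub_le_norm_sub_add_norm_sub _ _ _
    _ ≤ 3 * ‖F a - F b‖ := by rw [h2, ← H.iso a' b h1]; linarith

theorem Ext.lipschitz (H : Ext F) : LipschitzWith 3 F :=
  LipschitzWith.of_dist_le_mul fun a b => by simpa [dist_eq_norm] using H.lip a b

theorem Ext.antilipschitz (H : Ext F) : AntilipschitzWith 3 F :=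
  AntilipschitzWith.of_le_mul_dist fun a b => by simpa [dist_eq_norm] using H.antilip a b

variable [FiniteDimensional ℝ X]

theorem Ext.finiteDimensional (H : Ext F) : FiniteDimensional ℝ Y := by
  refine FiniteDimensional.of_isCompact_closedBall ℝ one_pos (c := 0) ?_
  have e : Metric.closedBall (0 : Y) 1 = F '' Metric.closedBall (0 : X) 1 := by
    ext y
    simp only [Metric.mem_closedBall, dist_zero_right, Set.mem_image]
    refine ⟨fun hy => ?_, ?_⟩
    · obtain ⟨x, rfl⟩ := H.surj y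
      exact ⟨x, by rwa [← H.norm_eq], rfl⟩
    · rintro ⟨x, hx, rfl⟩; rwa [H.norm_eq]
  rw [e]
  exact (isCompact_closedBall _ _).image H.lipschitz.continuous

theorem Ext.finrank_eq (H : Ext F) : Module.finrank ℝ Y = Module.finrank ℝ X := by
  have := H.finiteDimensional
  have h1 := H.lipschitz.dimH_image_le (s := Set.univ)
  have h2 := H.antilipschitz.le_dimH_image Set.univ
  rw [Set.image_univ, H.surj.range_eq, Real.dimH_univ_eq_finrank, Real.dimH_univ_eq_finrank] at h1 h2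
  exact_mod_cast le_antisymm h1 h2

/-- derivatives are invertible -/
theorem Ext.exists_equiv (H : Ext F) {p : X} {L : X →L[ℝ] Y} (hL : HasFDerivAt F L p) :
    ∃ e : X ≃L[ℝ] Y, (e : X →L[ℝ] Y) = L := by
  have := H.finiteDimensional
  have hinj : Function.Injective L := by
    refine (injective_iff_map_eq_zero _).mpr fun v hv => ?_
    have hd : HasDerivAt (fun t : ℝ => F (p + t • v)) (0 : Y) 0 := by
      rw [← hv]
      exact HasFDerivAt.comp_hasDerivAt (f := fun t : ℝ => p + t • v) (0 : ℝ) (by simpa using hL)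
        (by simpa using ((hasDerivAt_id (0 : ℝ)).smul_const v).const_add p)
    have hl := (hasDerivAt_iff_tendsto_slope.mp hd).norm
    rw [norm_zero] at hl
    have hb : ∀ᶠ t : ℝ in 𝓝[≠] 0,
        ‖v‖ ≤ 3 * ‖slope (fun t : ℝ => F (p + t • v)) 0 t‖ := by
      filter_upwards [self_mem_nhdsWithin] with t (ht : t ≠ 0)
      rw [slope_def_module, norm_smul, sub_zero, zero_smul, add_zero, norm_inv]
      have h := H.antilip (p + t • v) p
      rw [add_sub_cancel_left, norm_smul] at h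
      rw [← mul_assoc, mul_comm 3, mul_assoc, le_inv_mul_iff₀ (norm_pos_iff.mpr ht)]
      exact h
    have := ge_of_tendsto (hl.const_mul 3) hb
    simpa using this
  refine ⟨(LinearMap.linearEquivOfInjective (L : X →ₗ[ℝ] Y) hinj H.finrank_eq.symm
    ).toContinuousLinearEquiv, ?_⟩
  ext v; rfl

end Vale.Agent.P084
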