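import Mathlib

/-!
First and second derivatives of a differentiable norm.
-/

namespace Vale.Agent.P084

open Filter Topology

variable {E : Type*} [NormedAddCommGroup E] [NormedSpace ℝ E]

/-- the derivative of the norm -/
noncomputable def nd (y : E) : E →L[ℝ] ℝ := fderiv ℝ (norm : E → ℝ) y

/-- the second derivative of the norm -/
noncomputable def hd (y : E) : E →L[ℝ] E →L[ℝ] ℝ := fderiv ℝ (nd (E := E)) y

theorem nd_abs_le (y z : E) : |nd y z| ≤ ‖z‖ := by
  have h1 : ‖nd y‖ ≤ 1 := by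
    simpa [nd] using norm_fderiv_le_of_lipschitz ℝ (x₀ := y) (lipschitzWith_one_norm (E := E))
  have h2 := (nd y).le_opNorm z
  rw [Real.norm_eq_abs] at h2
  nlinarith [norm_nonneg z]

theorem nd_le (y z : E) : nd y z ≤ ‖z‖ := (le_abs_self _).trans (nd_abs_le y z)

variable {y : E}

theorem hasFDerivAt_norm' (hy : DifferentiableAt ℝ (norm : E → ℝ) y) :
    HasFDerivAt (norm : E → ℝ) (nd y) y := hy.hasFDerivAt

theorem nd_self (hy : DifferentiableAt ℝ (norm : E → ℝ) y) : nd y y = ‖y‖ := by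
  have h1 : HasDerivAt (fun t : ℝ => ‖y + t • y‖) (nd y y) 0 := by
    have hl : HasDerivAt (fun t : ℝ => y + t • y) y 0 := by
      simpa using ((hasDerivAt_id (0 : ℝ)).smul_const y).const_add y
    exact HasFDerivAt.comp_hasDerivAt (f := fun t : ℝ => y + t • y) (0 : ℝ)
      (by simpa using hasFDerivAt_norm' hy) hl
  have h2 : HasDerivAt (fun t : ℝ => (1 + t) * ‖y‖) ‖y‖ 0 := by
    simpa using ((hasDerivAt_id (0 : ℝ)).const_add 1).mul_const ‖y‖
  refine h1.unique (h2.congr_of_eventuallyEq ?_)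
  filter_upwards [Ioo_mem_nhds (by norm_num : (-1 : ℝ) < 0) one_pos] with t ht
  rw [show y + t • y = (1 + t) • y by rw [add_smul, one_smul], norm_smul, Real.norm_eq_abs,
    abs_of_pos (by linarith [ht.1])]

theorem differentiableAt_norm_smul (hy : DifferentiableAt ℝ (norm : E → ℝ) y) {t : ℝ}
    (ht : 0 < t) : HasFDerivAt (norm : E → ℝ) (nd y) (t • y) := by
  have h1 : HasFDerivAt (fun x : E => t * ‖t⁻¹ • x‖)
      (t • (nd y).comp (t⁻¹ • ContinuousLinearMap.id ℝ E)) (t • y) := by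
    refine HasFDerivAt.const_mul ?_ t
    refine HasFDerivAt.comp (g := (norm : E → ℝ)) (f := fun x : E => t⁻¹ • x) (t • y)
      (by simpa [ht.ne'] using hasFDerivAt_norm' hy) ?_
    exact (t⁻¹ • ContinuousLinearMap.id ℝ E).hasFDerivAt
  have e1 : t • (nd y).comp (t⁻¹ • ContinuousLinearMap.id ℝ E) = nd y := by
    ext z; simp [ht.ne']
  have e2 : (fun x : E => t * ‖t⁻¹ • x‖) = norm := by
    funext x; rw [norm_smul, Real.norm_eq_abs, abs_of_pos (inv_pos.mpr ht)]; field_simp
  rwa [e1, e2] at h1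

theorem nd_smul (hy : DifferentiableAt ℝ (norm : E → ℝ) y) {t : ℝ} (ht : 0 < t) :
    nd (t • y) = nd y := (differentiableAt_norm_smul hy ht).fderiv

theorem hasFDerivAt_norm_neg (hy : DifferentiableAt ℝ (norm : E → ℝ) y) :
    HasFDerivAt (norm : E → ℝ) (-nd y) (-y) := by
  have h1 : HasFDerivAt (fun x : E => ‖-x‖) ((nd y).comp (-ContinuousLinearMap.id ℝ E)) (-y) :=
    HasFDerivAt.comp (g := (norm : E → ℝ)) (f := fun x : E => -x) (-y)
      (by simpa using hasFDerivAt_norm' hy) (-ContinuousLinearMap.id ℝ E).hasFDerivAt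
  simpa [ContinuousLinearMap.comp_neg] using h1

theorem nd_neg (hy : DifferentiableAt ℝ (norm : E → ℝ) y) : nd (-y) = -nd y :=
  (hasFDerivAt_norm_neg hy).fderiv

theorem nd_unique (hy : DifferentiableAt ℝ (norm : E → ℝ) y) {γ : E →L[ℝ] ℝ}
    (hle : ∀ z, γ z ≤ ‖z‖) (heq : γ y = ‖y‖) : nd y = γ := by
  have hmin : IsLocalMin (fun x : E => ‖x‖ - γ x) y :=
    Eventually.of_forall fun z => by
      simp only [heq, sub_self]
      exact sub_nonneg.mpr (hle z)
  exact sub_eq_zero.mp (hmin.hasFDerivAt_eq_zero ((hasFDerivAt_norm' hy).sub γ.hasFDerivAt))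

/-- the gradient of an everywhere differentiable norm is continuous -/
theorem continuousAt_nd [FiniteDimensional ℝ E]
    (hd : ∀ z : E, z ≠ 0 → DifferentiableAt ℝ (norm : E → ℝ) z) (hy : y ≠ 0) :
    ContinuousAt (nd (E := E)) y := by
  refine tendsto_of_seq_tendsto fun u hu => ?_
  refine tendsto_of_subseq_tendsto fun ns hns => ?_
  have hb : ∀ k, nd (u (ns k)) ∈ Metric.closedBall (0 : E →L[ℝ] ℝ) 1 := fun k => by
    simpa [nd] using
      norm_fderiv_le_of_lipschitz ℝ (x₀ := u (ns k)) (lipschitzWith_one_norm (E := E))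
  obtain ⟨γ, -, φ, hφ, hlim⟩ :=
    (isCompact_closedBall (0 : E →L[ℝ] ℝ) 1).tendsto_subseq hb
  refine ⟨φ, ?_⟩
  have hu' : Tendsto (fun k => u (ns (φ k))) atTop (𝓝 y) :=
    hu.comp (hns.comp hφ.tendsto_atTop)
  suffices nd y = γ by rw [this]; exact hlim
  refine nd_unique (hd y hy) (fun z => ?_) ?_
  · exact le_of_tendsto (((ContinuousLinearMap.apply ℝ ℝ z).continuous.tendsto γ).comp hlim)
      (Eventually.of_forall fun k => nd_le _ _)
  · refine tendsto_nhds_unique ((isBoundedBilinearMap_apply.continuous.tendsto (γ, y)).comp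
      (hlim.prodMk_nhds hu')) ((continuous_norm.tendsto y).comp hu' |>.congr' ?_)
    filter_upwards [hu'.eventually_ne hy] with k hk
    exact (nd_self (hd _ hk)).symm

theorem contDiffAt_nd {n : ℕ} {k : ℕ} (h : ContDiffAt ℝ n (norm : E → ℝ) y) (hk : k + 1 ≤ n) :
    ContDiffAt ℝ k (nd (E := E)) y :=
  h.fderiv_right (by exact_mod_cast hk)

section Second

variable (h2 : ∀ z : E, z ≠ 0 → ContDiffAt ℝ 2 (norm : E → ℝ) z) (hy : y ≠ 0)
include h2 hy

theorem diff_norm : DifferentiableAt ℝ (norm : E → ℝ) y := (h2 y hy).differentiableAt two_ne_zero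

theorem hasFDerivAt_nd : HasFDerivAt (nd (E := E)) (hd y) y :=
  ((contDiffAt_nd (n := 2) (k := 1) (h2 y hy) le_rfl).differentiableAt one_ne_zero).hasFDerivAt

theorem hd_symm (a b : E) : hd y a b = hd y b a :=
  (h2 y hy).isSymmSndFDerivAt (by simp) a b

theorem hd_self : hd y y = 0 := by
  have h1 : HasDerivAt (fun t : ℝ => nd (y + t • y)) (hd y y) 0 := by
    have hl : HasDerivAt (fun t : ℝ => y + t • y) y 0 := by
      simpa using ((hasDerivAt_id (0 : ℝ)).smul_const y).const_add y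
    exact HasFDerivAt.comp_hasDerivAt (f := fun t : ℝ => y + t • y) (0 : ℝ)
      (by rw [zero_smul, add_zero]; exact hasFDerivAt_nd h2 hy) hl
  refine h1.unique ((hasDerivAt_const (0 : ℝ) (nd y)).congr_of_eventuallyEq ?_)
  filter_upwards [Ioo_mem_nhds (by norm_num : (-1 : ℝ) < 0) one_pos] with t ht
  rw [show y + t • y = (1 + t) • y by rw [add_smul, one_smul],
    nd_smul (diff_norm h2 hy) (by linarith [ht.1])]

theorem hd_right_self (a : E) : hd y a y = 0 := by
  rw [hd_symm h2 hy, hd_self h2 hy]; rfl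

theorem hd_smul {t : ℝ} (ht : 0 < t) : hd (t • y) = t⁻¹ • hd y := by
  have hty : t • y ≠ 0 := smul_ne_zero ht.ne' hy
  have h1 : HasFDerivAt (fun z : E => nd (t • z)) ((hd (t • y)).comp (t • ContinuousLinearMap.id ℝ E))
      y :=
    HasFDerivAt.comp (g := nd (E := E)) (f := fun z : E => t • z) y (hasFDerivAt_nd h2 hty)
      (t • ContinuousLinearMap.id ℝ E).hasFDerivAt
  have h2' : HasFDerivAt (fun z : E => nd (t • z)) (hd y) y := by
    refine (hasFDerivAt_nd h2 hy).congr_of_eventuallyEq ?_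
    filter_upwards [isOpen_ne.mem_nhds hy] with z hz
    exact nd_smul (diff_norm h2 hz) ht
  have := h1.unique h2'
  rw [← this, ContinuousLinearMap.comp_smul, ContinuousLinearMap.comp_id, smul_smul,
    inv_mul_cancel₀ ht.ne', one_smul]

theorem hd_nonneg (a : E) : 0 ≤ hd y a a := by
  have h1 : HasDerivAt (fun t : ℝ => nd (y + t • a) a) (hd y a a) 0 := by
    have hl : HasDerivAt (fun t : ℝ => y + t • a) a 0 := by
      simpa using ((hasDerivAt_id (0 : ℝ)).smul_const a).const_add y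
    have hb : HasDerivAt (fun t : ℝ => nd (y + t • a)) (hd y a) 0 :=
      HasFDerivAt.comp_hasDerivAt (f := fun t : ℝ => y + t • a) (0 : ℝ)
        (by rw [zero_smul, add_zero]; exact hasFDerivAt_nd h2 hy) hl
    exact (ContinuousLinearMap.apply ℝ ℝ a).hasFDerivAt.comp_hasDerivAt (0 : ℝ) hb
  refine ge_of_tendsto (hasDerivAt_iff_tendsto_slope.mp h1
    |>.mono_left (nhdsWithin_mono _ fun t (ht : t ∈ Set.Ioi (0 : ℝ)) => ne_of_gt ht)) ?_
  have hc : ∀ᶠ t : ℝ in 𝓝 0, y + t • a ≠ 0 :=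
    (show ContinuousAt (fun t : ℝ => y + t • a) 0 by fun_prop).eventually_ne (by simpa using hy)
  filter_upwards [self_mem_nhdsWithin, nhdsWithin_le_nhds hc] with t (ht : (0 : ℝ) < t) hne
  have e1 := nd_self (diff_norm h2 hne)
  have e2 := nd_self (diff_norm h2 hy)
  have l1 := nd_le (y + t • a) y
  have l2 := nd_le y (y + t • a)
  simp only [map_add, map_smul, smul_eq_mul] at e1 l2
  simp only [slope_def_field, zero_smul, add_zero]
  apply div_nonneg ?_ (by linarith)
  have : 0 ≤ t * (nd (y + t • a) a - nd y a) := by linarith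
  exact nonneg_of_mul_nonneg_right this ht

end Second

end Vale.Agent.P084
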